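import Vale.Agent.N204.Torus

namespace Vale.Agent.Results.P204.A0Cones

open scoped Manifold ContDiff
open MeasureTheory Vale.Agent.P204.DC Vale.Agent.P204.Cls Vale.Agent.N204

/-- The statement on the classes of `(X, J)`; `μ` and `b` are Lebesgue measure and the standard
basis of the model space. -/
def Classes {E : Type*} [NormedAddCommGroup E] [NormedSpace ℝ E] {X : Type*} [TopologicalSpace X]
    [ChartedSpace E X] [MeasurableSpace E] (μ : Measure E) (b : Module.Basis (Fin 4) ℝ E)
    (J : EndField E X) : Prop :=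
  ∀ ta, Tamed J ta → ∀ I, IsIntegral μ b J I →
    Criterion J I ta ∧ (∀ om al, Compat J om → Anti J al → Tamed J (om + al)) ∧
      ∀ m : ℕ, HMinusGe J m → BPlusLe I (m + 1) → Splits J ta

/-- (1) The classes of taming forms which contain a compatible form.  (2) The cone formula
`K^t = K^c + H⁻` if `h⁻ = b₂⁺ - 1`.  (3) The formula is false without this hypothesis. -/
theorem result.{u} :
    (∀ (X : Type u) [TopologicalSpace X] [ChartedSpace (EuclideanSpace ℝ (Fin 4)) X]
      [IsManifold (𝓡 4) ∞ X] [CompactSpace X] [T2Space X] [ConnectedSpace X]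
      (J : EndField (EuclideanSpace ℝ (Fin 4)) X), AlmostComplex J →
      Classes volume (EuclideanSpace.basisFun (Fin 4) ℝ).toBasis J) ∧
    ¬ ∀ (X : Type) [TopologicalSpace X] [ChartedSpace (EuclideanSpace ℝ (Fin 4)) X]
      [IsManifold (𝓡 4) ∞ X] [CompactSpace X] [T2Space X] [ConnectedSpace X]
      (J : EndField (EuclideanSpace ℝ (Fin 4)) X), AlmostComplex J → ∀ ta, Tamed J ta →
      Splits J ta := by
  refine ⟨fun X _ _ _ _ _ _ J hJ ta ht I hI => ?_, fun h => ?_⟩
  · have h := thm X J hJ ta ht I ((isIntegral_iff J I).1 hI)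
    exact ⟨h.1, h.2.2, h.2.1⟩
  · let := Tor.cs
    have := Tor.mfd
    exact Tor.not_formula (h Tor.TT Tor.JE Tor.ac _ (Tor.tamed 2 (by norm_num) le_rfl))

end Vale.Agent.Results.P204.A0Cones
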